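import Mathlib

/-!
# P356: spin systems on the square lattice

Operators are matrices in the configuration basis of `⊗_{x ∈ Λ_L} ℂ^q`.
-/

namespace Vale.Agent.P356

open Matrix Finset
open scoped ComplexOrder

/-- The sites of `Λ_L`. -/
abbrev Site (L : ℕ) := Fin L × Fin L

/-- The configurations: an orthonormal basis of the Hilbert space. -/
abbrev Cfg (L q : ℕ) := Site L → Fin q

/-- Operators on the Hilbert space. -/
abbrev Op (L q : ℕ) := Matrix (Cfg L q) (Cfg L q) ℂ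

/-- The `ℓ¹` distance. -/
def dist1 {L : ℕ} (x y : Site L) : ℕ :=
  ((x.1 : ℤ) - y.1).natAbs + ((x.2 : ℤ) - y.2).natAbs

/-- The sites within distance `w` of `A`. -/
def thicken {L : ℕ} (A : Finset (Site L)) (w : ℕ) : Finset (Site L) :=
  {x | ∃ a ∈ A, dist1 x a ≤ w}

/-- The edge boundary. -/
def edgeBoundary {L : ℕ} (A : Finset (Site L)) : Finset (Site L × Site L) :=
  {e | e.1 ∈ A ∧ e.2 ∉ A ∧ dist1 e.1 e.2 = 1}

/-- The operator acts on the tensor factors in `S` and as the identity elsewhere. -/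
def ActsOn {L q : ℕ} (S : Finset (Site L)) (M : Op L q) : Prop :=
  (∀ a b : Cfg L q, (∃ x, x ∉ S ∧ a x ≠ b x) → M a b = 0) ∧
  ∀ a b a' b' : Cfg L q, (∀ x, x ∉ S → a x = b x) → (∀ x, x ∉ S → a' x = b' x) →
    (∀ x ∈ S, a x = a' x ∧ b x = b' x) → M a b = M a' b'

/-- Join a configuration on `A` with one on its complement. -/
def glue {L q : ℕ} (A : Finset (Site L)) (a : {x // x ∈ A} → Fin q)
    (b : {x // x ∉ A} → Fin q) : Cfg L q :=
  fun x => if h : x ∈ A then a ⟨x, h⟩ else b ⟨x, h⟩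

/-- The state as a matrix across the cut. -/
def stateMatrix {L q : ℕ} (A : Finset (Site L)) (Ω : Cfg L q → ℂ) :
    Matrix ({x // x ∈ A} → Fin q) ({x // x ∉ A} → Fin q) ℂ :=
  fun a b => Ω (glue A a b)

/-- The reduced density matrix `Tr_{Λ∖A} |Ω⟩⟨Ω|`. -/
noncomputable def reduced {L q : ℕ} (A : Finset (Site L)) (Ω : Cfg L q → ℂ) :
    Matrix ({x // x ∈ A} → Fin q) ({x // x ∈ A} → Fin q) ℂ :=
  stateMatrix A Ω * (stateMatrix A Ω)ᴴ

/-- The entanglement entropy `-Tr ρ log ρ`. -/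
noncomputable def entropy {L q : ℕ} (A : Finset (Site L)) (Ω : Cfg L q → ℂ) : ℝ :=
  ∑ i, Real.negMulLog
    ((isHermitian_mul_conjTranspose_self (stateMatrix A Ω)).eigenvalues i)

/-- `Ω` is a unit eigenvector of `H` with a simple eigenvalue `E`. -/
def SimpleEigen {L q : ℕ} (H : Op L q) (E : ℝ) (Ω : Cfg L q → ℂ) : Prop :=
  ∑ a, ‖Ω a‖ ^ 2 = 1 ∧ H *ᵥ Ω = (E : ℂ) • Ω ∧
    ∀ v : Cfg L q → ℂ, H *ᵥ v = (E : ℂ) • v → ∃ c : ℂ, v = c • Ω

end Vale.Agent.P356
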