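import Vale.Agent.P356.Split

/-!
# P356: the seam of a region is controlled by its edge boundary
-/

namespace Vale.Agent.P356

open Matrix Finset

variable {L q : ℕ}

lemma dist1_triangle (x y z : Site L) : dist1 x z ≤ dist1 x y + dist1 y z := by
  simp only [dist1]; omega

lemma dist1_comm (x y : Site L) : dist1 x y = dist1 y x := by
  simp only [dist1]; omega

lemma exists_step (a b : Site L) (h : a ≠ b) :
    ∃ c, dist1 a c = 1 ∧ dist1 c b + 1 = dist1 a b := by
  by_cases h1 : (a.1 : ℕ) < b.1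
  · exact ⟨(⟨a.1 + 1, by omega⟩, a.2), by simp [dist1], by simp only [dist1]; push_cast; omega⟩
  by_cases h2 : (b.1 : ℕ) < a.1
  · refine ⟨(⟨a.1 - 1, by omega⟩, a.2), ?_, ?_⟩ <;> simp only [dist1] <;> omega
  have hne : (a.2 : ℕ) ≠ b.2 := fun h3 =>
    h (Prod.ext (Fin.ext (by omega)) (Fin.ext h3))
  by_cases h3 : (a.2 : ℕ) < b.2
  · exact ⟨(a.1, ⟨a.2 + 1, by omega⟩), by simp [dist1], by simp only [dist1]; push_cast; omega⟩
  · refine ⟨(a.1, ⟨a.2 - 1, by omega⟩), ?_, ?_⟩ <;> simp only [dist1] <;> omega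

lemma exists_edge_near (A : Finset (Site L)) : ∀ (n : ℕ) (a b : Site L), a ∈ A → b ∉ A →
    dist1 a b ≤ n → ∃ e ∈ edgeBoundary A, dist1 a e.1 ≤ n
  | 0, a, b, ha, hb, h => by
    have : a = b := by
      simp only [dist1] at h
      exact Prod.ext (Fin.ext (by omega)) (Fin.ext (by omega))
    exact absurd (this ▸ ha) hb
  | n + 1, a, b, ha, hb, h => by
    obtain ⟨c, hc, hcb⟩ := exists_step a b fun e => hb (e ▸ ha)
    by_cases hcA : c ∈ A
    · obtain ⟨e, he, hd⟩ := exists_edge_near A n c b hcA hb (by omega)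
      exact ⟨e, he, by have := dist1_triangle a c e.1; omega⟩
    · exact ⟨(a, c), by simp [edgeBoundary, ha, hcA, hc], by simp [dist1]⟩

lemma card_ball_le (u : Site L) (r : ℕ) :
    #({x | dist1 x u ≤ r} : Finset (Site L)) ≤ (2 * r + 1) ^ 2 := by
  have h := card_le_card_of_injOn
    (s := ({x | dist1 x u ≤ r} : Finset (Site L)))
    (t := Icc (-(r : ℤ)) r ×ˢ Icc (-(r : ℤ)) r)
    (fun x => ((x.1 : ℤ) - u.1, (x.2 : ℤ) - u.2))
    (fun x hx => by
      have hx' : dist1 x u ≤ r := by simpa using hx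
      simp only [dist1] at hx'
      simp only [coe_product, coe_Icc, Set.mem_prod, Set.mem_Icc]
      omega)
    (fun x _ y _ e => by
      simp only [Prod.mk.injEq] at e
      exact Prod.ext (Fin.ext (by omega)) (Fin.ext (by omega)))
  refine h.trans (le_of_eq ?_)
  rw [card_product, Int.card_Icc, sq, show ((r : ℤ) + 1 - -(r : ℤ)).toNat = 2 * r + 1 by omega]

lemma card_seam_le (A : Finset (Site L)) (w : ℕ) :
    #(thicken A w ∩ thicken Aᶜ w) ≤ (6 * w + 1) ^ 2 * #(edgeBoundary A) := by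
  classical
  have hsub : thicken A w ∩ thicken Aᶜ w ⊆
      (edgeBoundary A).biUnion fun e => ({x | dist1 x e.1 ≤ 3 * w} : Finset (Site L)) := by
    intro x hx
    simp only [thicken, mem_inter, mem_filter, mem_univ, true_and, mem_compl] at hx
    obtain ⟨⟨a, ha, hxa⟩, ⟨b, hb, hxb⟩⟩ := hx
    obtain ⟨e, he, hd⟩ := exists_edge_near A (2 * w) a b ha hb
      (by have := dist1_triangle a x b; have := dist1_comm a x; omega)
    refine mem_biUnion.2 ⟨e, he, mem_filter.2 ⟨mem_univ _, ?_⟩⟩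
    have := dist1_triangle x a e.1
    omega
  refine (card_le_card hsub).trans ?_
  refine (card_biUnion_le_card_mul _ _ _ fun e _ => card_ball_le e.1 (3 * w)).trans (le_of_eq ?_)
  ring

lemma self_subset_thicken (A : Finset (Site L)) (w : ℕ) : A ⊆ thicken A w := fun x hx => by
  simp only [thicken, mem_filter, mem_univ, true_and]
  exact ⟨x, hx, by simp [dist1]⟩

lemma ActsOn.mono {S T : Finset (Site L)} {M : Op L q} (hM : ActsOn S M) (h : S ⊆ T) :
    ActsOn T M := by
  refine ⟨fun a b ⟨x, hx, hab⟩ => hM.1 a b ⟨x, fun hs => hx (h hs), hab⟩,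
    fun a b a' b' hab hab' hS => ?_⟩
  by_cases hall : ∀ x, x ∉ S → a x = b x
  · refine hM.2 a b a' b' hall (fun x hx => ?_) fun x hx => hS x (h hx)
    by_cases hxT : x ∈ T
    · rw [← (hS x hxT).1, ← (hS x hxT).2, hall x hx]
    · exact hab' x hxT
  · push Not at hall
    obtain ⟨x, hx, hne⟩ := hall
    have hxT : x ∈ T := by_contra fun hxT => hne (hab x hxT)
    rw [hM.1 a b ⟨x, hx, hne⟩, hM.1 a' b' ⟨x, hx, ?_⟩]
    rwa [← (hS x hxT).1, ← (hS x hxT).2]

lemma isHermitian_sum {ι n : Type*} (s : Finset ι) {f : ι → Matrix n n ℂ}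
    (h : ∀ i ∈ s, (f i).IsHermitian) : (∑ i ∈ s, f i).IsHermitian := by
  classical
  induction s using Finset.induction_on with
  | empty => simp
  | insert i s hi ih =>
    rw [sum_insert hi]
    exact (h i (mem_insert_self i s)).add (ih fun j hj => h j (mem_insert_of_mem hj))

/-- Entropy bound for a commuting split at width `w`. -/
theorem entropy_le_boundary (A : Finset (Site L)) (w : ℕ) {H1 H2 : Op L q} (h1 : H1.IsHermitian)
    (h2 : H2.IsHermitian) (hc : Commute H1 H2) (l1 : ActsOn (thicken A w) H1)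
    (l2 : ActsOn (thicken Aᶜ w) H2) {E : ℝ} {Ω : Cfg L q → ℂ}
    (hE : SimpleEigen (H1 + H2) E Ω) :
    entropy A Ω ≤ 2 * (6 * w + 1 : ℝ) ^ 2 * Real.log q * #(edgeBoundary A) := by
  refine (entropy_le_seam A _ _ (self_subset_thicken A w) (self_subset_thicken Aᶜ w) h1 h2 hc
    l1 l2 hE).trans ?_
  have hlog := Real.log_natCast_nonneg q
  calc 2 * (#(thicken A w ∩ thicken Aᶜ w) : ℝ) * Real.log q
      ≤ 2 * (((6 * w + 1) ^ 2 * #(edgeBoundary A) : ℕ) : ℝ) * Real.log q := by
        gcongr; exact card_seam_le A w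
    _ = _ := by push_cast; ring

/-- Entropy bound for a Hamiltonian made of pairwise commuting terms of range `R`. -/
theorem entropy_le_boundary_commuting (A : Finset (Site L)) (R : ℕ)
    {h : Finset (Site L) → Op L q} (hh : ∀ X, (h X).IsHermitian) (hl : ∀ X, ActsOn X (h X))
    (hd : ∀ X, h X ≠ 0 → X.Nonempty ∧ ∀ x ∈ X, ∀ y ∈ X, dist1 x y ≤ R)
    (hc : ∀ X Y, Commute (h X) (h Y)) {E : ℝ} {Ω : Cfg L q → ℂ}
    (hE : SimpleEigen (∑ X, h X) E Ω) :
    entropy A Ω ≤ 2 * (6 * R + 1 : ℝ) ^ 2 * Real.log q * #(edgeBoundary A) := by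
  classical
  rw [← sum_filter_add_sum_filter_not univ fun X => (X ∩ A).Nonempty] at hE
  refine entropy_le_boundary A R (isHermitian_sum _ fun X _ => hh X)
    (isHermitian_sum _ fun X _ => hh X) (Commute.sum_left _ _ _ fun X _ =>
      Commute.sum_right _ _ _ fun Y _ => hc X Y)
    (ActsOn.sum _ fun X hX => ?_) (ActsOn.sum _ fun X hX => ?_) hE
  · by_cases h0 : h X = 0
    · rw [h0]; exact ActsOn.zero
    obtain ⟨a, ha⟩ := (mem_filter.1 hX).2
    refine (hl X).mono fun x hx => mem_filter.2 ⟨mem_univ _, a, (mem_inter.1 ha).2, ?_⟩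
    exact (hd X h0).2 x hx a (mem_inter.1 ha).1
  · refine (hl X).mono fun x hx => self_subset_thicken _ _ (mem_compl.2 fun hxA => ?_)
    exact (mem_filter.1 hX).2 ⟨x, mem_inter.2 ⟨hx, hxA⟩⟩

end Vale.Agent.P356
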