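import Vale.Agent.P356.Defs

/-!
# P356: entropy of a simple eigenstate of a commuting split
-/

namespace Vale.Agent.P356

open Matrix Finset Polynomial
open scoped ComplexOrder

section Algebra

variable {n : Type*} [Fintype n] [DecidableEq n]

lemma sq_ker {H : Matrix n n ℂ} (hH : H.IsHermitian) {v : n → ℂ} (h : H *ᵥ (H *ᵥ v) = 0) :
    H *ᵥ v = 0 := by
  refine dotProduct_star_self_eq_zero.1 ?_
  rw [star_mulVec, hH.eq, ← dotProduct_mulVec, h, dotProduct_zero]

lemma pow_ker {H : Matrix n n ℂ} (hH : H.IsHermitian) :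
    ∀ (k : ℕ) {v : n → ℂ}, (H ^ k) *ᵥ v = 0 → H *ᵥ v = 0
  | 0, v, h => by
    rw [pow_zero, one_mulVec] at h
    rw [h, mulVec_zero]
  | k + 1, v, h => by
    rw [pow_succ, ← mulVec_mulVec] at h
    exact sq_ker hH (pow_ker hH k h)

lemma aeval_mulVec_eigen {H : Matrix n n ℂ} {Ω : n → ℂ} {a : ℂ} (h : H *ᵥ Ω = a • Ω)
    (p : ℂ[X]) : (aeval H p) *ᵥ Ω = p.eval a • Ω := by
  induction p using Polynomial.induction_on' with
  | add p r hp hr => rw [map_add, add_mulVec, hp, hr, eval_add, add_smul]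
  | monomial k c =>
    have hk : ∀ k : ℕ, (H ^ k) *ᵥ Ω = a ^ k • Ω := by
      intro k
      induction k with
      | zero => simp
      | succ k ih => rw [pow_succ, ← mulVec_mulVec, h, mulVec_smul, ih, smul_smul, pow_succ']
    rw [aeval_monomial, eval_monomial, ← Algebra.smul_def, smul_mulVec, hk, smul_smul]

/-- A polynomial in `H` that fixes the eigenvector and has range in the eigenspace. -/
lemma exists_proj {H : Matrix n n ℂ} (hH : H.IsHermitian) {Ω : n → ℂ} {a : ℝ}
    (h : H *ᵥ Ω = (a : ℂ) • Ω) :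
    ∃ p : ℂ[X], (aeval H p) *ᵥ Ω = Ω ∧
      ∀ v, H *ᵥ ((aeval H p) *ᵥ v) = (a : ℂ) • ((aeval H p) *ᵥ v) := by
  have h0 : H.charpoly ≠ 0 := (charpoly_monic H).ne_zero
  obtain ⟨g, hg, hdvd⟩ := H.charpoly.exists_eq_pow_rootMultiplicity_mul_and_not_dvd h0 (a : ℂ)
  rw [dvd_iff_isRoot] at hdvd
  set c : ℂ := g.eval (a : ℂ)
  have hc : c ≠ 0 := hdvd
  refine ⟨C c⁻¹ * g, ?_, fun v => ?_⟩
  · rw [aeval_mulVec_eigen h, eval_mul, eval_C, inv_mul_cancel₀ hc, one_smul]
  set K : Matrix n n ℂ := H - algebraMap ℂ (Matrix n n ℂ) (a : ℂ) with hK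
  have hKh : K.IsHermitian := by
    refine hH.sub ?_
    rw [Algebra.algebraMap_eq_smul_one]
    simp [IsHermitian, conjTranspose_smul]
  have hzero := aeval_self_charpoly H
  rw [hg, map_mul, map_pow, map_sub, aeval_X, aeval_C, ← hK] at hzero
  have hker : K *ᵥ ((aeval H (C c⁻¹ * g)) *ᵥ v) = 0 := by
    refine pow_ker hKh (H.charpoly.rootMultiplicity (a : ℂ)) ?_
    rw [map_mul, aeval_C, ← Algebra.smul_def, smul_mulVec, mulVec_smul, mulVec_mulVec, hzero,
      zero_mulVec, smul_zero]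
  rw [hK, sub_mulVec, sub_eq_zero, Algebra.algebraMap_eq_smul_one, smul_mulVec,
    one_mulVec] at hker
  exact hker

/-- A commuting split yields two operators in the algebras of the halves whose product has range
in the line of `Ω`. -/
lemma rank_one {H1 H2 : Matrix n n ℂ} (h1 : H1.IsHermitian) (h2 : H2.IsHermitian)
    (hc : Commute H1 H2) {Ω : n → ℂ} (hΩ : Ω ≠ 0) {E : ℝ}
    (he : (H1 + H2) *ᵥ Ω = (E : ℂ) • Ω)
    (hs : ∀ v, (H1 + H2) *ᵥ v = (E : ℂ) • v → ∃ c : ℂ, v = c • Ω) :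
    ∃ p r : ℂ[X], ∃ z : n, ∃ c : ℂ, ∀ x, Ω x = c * (aeval H1 p * aeval H2 r) x z := by
  obtain ⟨a, ha⟩ := hs (H1 *ᵥ Ω) (by
    rw [mulVec_mulVec, ((Commute.refl H1).add_left hc.symm).eq, ← mulVec_mulVec, he, mulVec_smul])
  have hstar : star Ω ⬝ᵥ Ω ≠ 0 := fun h => hΩ (dotProduct_star_self_eq_zero.1 h)
  have hreal : star a = a := by
    have e1 : star Ω ⬝ᵥ (H1 *ᵥ Ω) = a * (star Ω ⬝ᵥ Ω) := by rw [ha, dotProduct_smul, smul_eq_mul]
    have e2 : star Ω ⬝ᵥ (H1 *ᵥ Ω) = star a * (star Ω ⬝ᵥ Ω) := by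
      calc star Ω ⬝ᵥ (H1 *ᵥ Ω) = star (H1 *ᵥ Ω) ⬝ᵥ Ω := by
            rw [star_mulVec, h1.eq, dotProduct_mulVec]
        _ = _ := by rw [ha, star_smul, smul_dotProduct, smul_eq_mul]
    exact mul_right_cancel₀ hstar (e2.symm.trans e1)
  obtain ⟨α, rfl⟩ : ∃ α : ℝ, a = (α : ℂ) := ⟨a.re, (Complex.conj_eq_iff_re.1 hreal).symm⟩
  have hb : H2 *ᵥ Ω = ((E - α : ℝ) : ℂ) • Ω := by
    rw [add_mulVec, ha] at he
    rw [eq_sub_of_add_eq' he, Complex.ofReal_sub, sub_smul]
  obtain ⟨p, hp, hp'⟩ := exists_proj h1 ha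
  obtain ⟨r, hr, hr'⟩ := exists_proj h2 hb
  have hcomm' : ∀ p : ℂ[X], H2 * aeval H1 p = aeval H1 p * H2 := fun p => by
    induction p using Polynomial.induction_on' with
    | add p q hp hq => rw [map_add, mul_add, add_mul, hp, hq]
    | monomial k c =>
      rw [aeval_monomial, ← Algebra.smul_def, mul_smul_comm, smul_mul_assoc,
        (hc.symm.pow_right k).eq]
  have hcomm := hcomm' p
  set P : Matrix n n ℂ := aeval H1 p * aeval H2 r with hP
  have hPΩ : P *ᵥ Ω = Ω := by rw [hP, ← mulVec_mulVec, hr, hp]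
  have hrange : ∀ v, ∃ c : ℂ, P *ᵥ v = c • Ω := fun v => hs _ (by
    have e2 : H2 *ᵥ (P *ᵥ v) = ((E - α : ℝ) : ℂ) • (P *ᵥ v) := by
      rw [hP, mulVec_mulVec, ← mul_assoc, hcomm, mul_assoc, ← mulVec_mulVec, ← mulVec_mulVec, hr',
        mulVec_smul, mulVec_mulVec]
    rw [add_mulVec, e2, hP, ← mulVec_mulVec, hp', ← add_smul]
    push_cast
    rw [add_sub_cancel])
  obtain ⟨z, hz⟩ : ∃ z, P *ᵥ Pi.single z 1 ≠ 0 := by
    by_contra! hall
    refine hΩ ?_
    rw [← hPΩ]
    ext x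
    have hx : ∀ z, P x z = 0 := fun z => by
      have := congrFun (hall z) x
      simpa using this
    simp [mulVec, dotProduct, hx]
  obtain ⟨c, hc'⟩ := hrange (Pi.single z 1)
  have hc0 : c ≠ 0 := fun h => hz (by rw [hc', h, zero_smul])
  refine ⟨p, r, z, c⁻¹, fun x => ?_⟩
  have hx := congrFun hc' x
  simp only [hP, mulVec_single_one, col_apply, Pi.smul_apply, smul_eq_mul] at hx
  rw [hx, inv_mul_cancel_left₀ hc0]

/-- The entropy is at most the logarithm of the rank. -/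
lemma entropy_le_log_rank {M : Matrix n n ℂ} (hM : M.PosSemidef) (ht : M.trace = 1) :
    ∑ i, Real.negMulLog (hM.1.eigenvalues i) ≤ Real.log M.rank := by
  classical
  set d := hM.1.eigenvalues with hd
  set T : Finset n := {i | d i ≠ 0}
  have hk : M.rank = T.card := by
    rw [hM.1.rank_eq_card_non_zero_eigs, Fintype.card_subtype]
  have hsum : ∑ i, d i = 1 := by
    have := hM.1.trace_eq_sum_eigenvalues
    rw [ht] at this
    have h2 := congrArg Complex.re this
    simp at h2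
    exact h2.symm
  have hT : ∑ i ∈ T, d i = 1 := by rw [sum_filter_ne_zero, hsum]
  have hpos : 0 < (T.card : ℝ) := by
    rcases T.eq_empty_or_nonempty with h | h
    · rw [h] at hT; simp at hT
    · exact_mod_cast h.card_pos
  have hbound : ∀ i ∈ T, Real.negMulLog (d i) - d i * Real.log T.card ≤ (T.card : ℝ)⁻¹ - d i := by
    intro i hi
    have hdi : 0 < d i := lt_of_le_of_ne (hM.eigenvalues_nonneg i) (Ne.symm (mem_filter.1 hi).2)
    have h1 := Real.log_le_sub_one_of_pos (show 0 < (d i * T.card)⁻¹ by positivity)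
    rw [Real.log_inv, Real.log_mul hdi.ne' hpos.ne'] at h1
    have h2 := mul_le_mul_of_nonneg_left h1 hdi.le
    have e : d i * ((d i * T.card)⁻¹ - 1) = (T.card : ℝ)⁻¹ - d i := by field_simp
    rw [e] at h2
    rw [Real.negMulLog]
    linarith
  have h := sum_le_sum hbound
  rw [sum_sub_distrib, sum_sub_distrib, ← sum_mul, hT, sum_const, nsmul_eq_mul,
    mul_inv_cancel₀ hpos.ne'] at h
  have e : ∑ i, Real.negMulLog (d i) = ∑ i ∈ T, Real.negMulLog (d i) :=
    (sum_filter_of_ne (p := fun i => d i ≠ 0) fun i _ hi hd0 =>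
      hi (by rw [hd0, Real.negMulLog_zero])).symm
  rw [e, hk]
  linarith

end Algebra

variable {L q : ℕ} {S : Finset (Site L)}

lemma ActsOn.zero : ActsOn S (0 : Op L q) := ⟨fun _ _ _ => rfl, fun _ _ _ _ _ _ _ => rfl⟩

lemma ActsOn.add {M N : Op L q} (hM : ActsOn S M) (hN : ActsOn S N) : ActsOn S (M + N) :=
  ⟨fun a b h => by simp [hM.1 a b h, hN.1 a b h], fun a b a' b' h h' hS => by
    simp [hM.2 a b a' b' h h' hS, hN.2 a b a' b' h h' hS]⟩

lemma ActsOn.smul {M : Op L q} (hM : ActsOn S M) (c : ℂ) : ActsOn S (c • M) :=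
  ⟨fun a b h => by simp [hM.1 a b h], fun a b a' b' h h' hS => by
    simp [hM.2 a b a' b' h h' hS]⟩

lemma ActsOn.sum {ι : Type*} (s : Finset ι) {f : ι → Op L q} (h : ∀ i ∈ s, ActsOn S (f i)) :
    ActsOn S (∑ i ∈ s, f i) := by
  classical
  induction s using Finset.induction_on with
  | empty => simpa using ActsOn.zero
  | insert i s hi ih =>
    rw [sum_insert hi]
    exact (h i (mem_insert_self i s)).add (ih fun j hj => h j (mem_insert_of_mem hj))

lemma ActsOn.one : ActsOn S (1 : Op L q) := by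
  refine ⟨fun a b ⟨x, _, hx⟩ => one_apply_ne fun e => hx (by rw [e]), fun a b a' b' h h' hS => ?_⟩
  have e : a = b ↔ a' = b' := by
    constructor
    · intro e; ext1 x
      by_cases hx : x ∈ S
      · rw [← (hS x hx).1, ← (hS x hx).2, e]
      · exact h' x hx
    · intro e; ext1 x
      by_cases hx : x ∈ S
      · rw [(hS x hx).1, (hS x hx).2, e]
      · exact h x hx
  simp [one_apply, e]

/-- Overwrite `b` on `S` by `k`. -/
def patch (S : Finset (Site L)) (b : Cfg L q) (k : {x // x ∈ S} → Fin q) : Cfg L q :=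
  fun x => if h : x ∈ S then k ⟨x, h⟩ else b x

lemma patch_injective (b : Cfg L q) : Function.Injective (patch S b) := fun k k' h => by
  funext x
  have := congrFun h x
  simpa [patch, x.2] using this

lemma sum_patch {α : Type*} [AddCommMonoid α] (b : Cfg L q) (f : Cfg L q → α)
    (h : ∀ y, (∃ x, x ∉ S ∧ y x ≠ b x) → f y = 0) : ∑ y, f y = ∑ k, f (patch S b k) := by
  classical
  rw [← sum_image (g := patch S b) fun k _ k' _ e => patch_injective b e]
  refine (sum_subset (subset_univ _) fun y _ hy => h y ?_).symm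
  by_contra! hall
  refine hy (mem_image.2 ⟨fun x => y x, mem_univ _, ?_⟩)
  ext1 x
  by_cases hx : x ∈ S
  · simp [patch, hx]
  · simp [patch, hx, hall x hx]

lemma ActsOn.mul {M N : Op L q} (hM : ActsOn S M) (hN : ActsOn S N) : ActsOn S (M * N) := by
  refine ⟨fun a b ⟨x, hx, hab⟩ => ?_, fun a b a' b' h h' hS => ?_⟩
  · rw [mul_apply]
    refine sum_eq_zero fun y _ => ?_
    by_cases hy : a x = y x
    · rw [hN.1 y b ⟨x, hx, hy ▸ hab⟩, mul_zero]
    · rw [hM.1 a y ⟨x, hx, hy⟩, zero_mul]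
  have hz : ∀ (a c : Cfg L q) y, (∃ x, x ∉ S ∧ y x ≠ a x) → M a y * N y c = 0 :=
    fun a c y ⟨x, hx, hy⟩ => by rw [hM.1 a y ⟨x, hx, Ne.symm hy⟩, zero_mul]
  rw [mul_apply, mul_apply, sum_patch a _ (hz a b), sum_patch a' _ (hz a' b')]
  refine sum_congr rfl fun k _ => ?_
  congr 1
  · exact hM.2 _ _ _ _ (fun x hx => by simp [patch, hx]) (fun x hx => by simp [patch, hx])
      fun x hx => ⟨(hS x hx).1, by simp [patch, hx]⟩
  · exact hN.2 _ _ _ _ (fun x hx => by simp [patch, hx, h x hx])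
      (fun x hx => by simp [patch, hx, h' x hx]) fun x hx => ⟨by simp [patch, hx], (hS x hx).2⟩

lemma ActsOn.aeval {M : Op L q} (hM : ActsOn S M) (p : ℂ[X]) :
    ActsOn S (Polynomial.aeval M p) := by
  induction p using Polynomial.induction_on' with
  | add p r hp hr => rw [map_add]; exact hp.add hr
  | monomial k c =>
    rw [aeval_monomial, ← Algebra.smul_def]
    refine ActsOn.smul ?_ c
    induction k with
    | zero => rw [pow_zero]; exact ActsOn.one
    | succ k ih => rw [pow_succ]; exact ih.mul hM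

/-- An entry of a product of operators on the two thickened halves factors through two copies of
the configurations of the seam. -/
lemma rank_stateMatrix_le (A S1 S2 : Finset (Site L)) (hA : A ⊆ S1) (hB : Aᶜ ⊆ S2) {P1 P2 : Op L q}
    (h1 : ActsOn S1 P1) (h2 : ActsOn S2 P2) (z : Cfg L q) (c : ℂ) {Ω : Cfg L q → ℂ}
    (hΩ : ∀ x, Ω x = c * (P1 * P2) x z) :
    (stateMatrix A Ω).rank ≤ q ^ (2 * (S1 ∩ S2).card) := by
  classical
  rcases Nat.eq_zero_or_pos q with rfl | hq
  · have : IsEmpty (Site L) := ⟨fun x => (z x).elim0⟩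
    refine (rank_le_card_height _).trans ?_
    rw [Finset.eq_empty_of_isEmpty A, Finset.eq_empty_of_isEmpty (S1 ∩ S2)]
    simp
  set N := S1 ∩ S2 with hN
  set d : Fin q := ⟨0, hq⟩
  -- the middle configuration
  let mid : ({x // x ∈ N} → Fin q) → Cfg L q → Cfg L q := fun k x y =>
    if h : y ∈ N then k ⟨y, h⟩ else if y ∈ S1 then z y else x y
  have hexp : ∀ x, (P1 * P2) x z = ∑ k, P1 x (mid k x) * P2 (mid k x) z := by
    intro x
    rw [mul_apply]
    have hmid : ∀ k, mid k x = patch N (fun y => if y ∈ S1 then z y else x y) k := fun k => rfl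
    simp only [hmid]
    refine sum_patch _ _ fun y ⟨t, ht, hy⟩ => ?_
    by_cases h : t ∈ S1
    · rw [if_pos h] at hy
      have ht2 : t ∉ S2 := fun h2' => ht (mem_inter.2 ⟨h, h2'⟩)
      rw [h2.1 y z ⟨t, ht2, hy⟩, mul_zero]
    · rw [if_neg h] at hy
      rw [h1.1 x y ⟨t, h, Ne.symm hy⟩, zero_mul]
  -- read the part of a configuration outside `A` from the seam
  let low : ({x // x ∈ A} → Fin q) → ({x // x ∈ N} → Fin q) → Cfg L q := fun a β x =>
    if h : x ∈ A then a ⟨x, h⟩ else if h' : x ∈ N then β ⟨x, h'⟩ else d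
  let high : ({x // x ∉ A} → Fin q) → Cfg L q := fun b x =>
    if h : x ∈ A then d else b ⟨x, h⟩
  let res : ({x // x ∉ A} → Fin q) → ({x // x ∈ N} → Fin q) := fun b x => high b x
  let U : Matrix ({x // x ∈ A} → Fin q) (({x // x ∈ N} → Fin q) × ({x // x ∈ N} → Fin q)) ℂ :=
    fun a kβ => c * P1 (low a kβ.2) (mid kβ.1 (low a kβ.2))
  let V : Matrix (({x // x ∈ N} → Fin q) × ({x // x ∈ N} → Fin q)) ({x // x ∉ A} → Fin q) ℂ :=
    fun kβ b => if kβ.2 = res b then P2 (mid kβ.1 (high b)) z else 0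
  have hUV : stateMatrix A Ω = U * V := by
    ext a b
    rw [stateMatrix, hΩ, hexp, mul_apply, Fintype.sum_prod_type, mul_sum]
    refine sum_congr rfl fun k _ => ?_
    simp only [U, V, mul_ite, mul_zero, sum_ite_eq', mem_univ, if_true]
    have hout : ∀ y, y ∉ S1 → y ∉ A := fun y h h' => h (hA h')
    have e2 : mid k (glue A a b) = mid k (high b) := by
      funext y
      simp only [mid]
      split_ifs with h h'
      · rfl
      · rfl
      · simp [glue, high, hout y h']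
    have e1 : P1 (glue A a b) (mid k (glue A a b))
        = P1 (low a (res b)) (mid k (low a (res b))) := by
      have hN1 : ∀ y ∈ S1, y ∉ A → y ∈ N := fun y hy hyA =>
        mem_inter.2 ⟨hy, hB (mem_compl.2 hyA)⟩
      refine h1.2 _ _ _ _ (fun y hy => ?_) (fun y hy => ?_) fun y hy => ⟨?_, ?_⟩
      · have hyN : y ∉ N := fun h => hy (mem_inter.1 h).1
        simp [mid, hy, hyN]
      · have hyN : y ∉ N := fun h => hy (mem_inter.1 h).1
        simp [mid, hy, hyN]
      · by_cases hyA : y ∈ A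
        · simp [glue, low, hyA]
        · simp [glue, low, res, high, hyA, hN1 y hy hyA]
      · simp only [mid]
        split_ifs <;> rfl
    rw [← e2, e1]
    ring
  rw [hUV]
  refine ((rank_mul_le_left U V).trans (rank_le_card_width U)).trans ?_
  simp [two_mul, pow_add]

/-- The entropy bound for a commuting split of arbitrary supports. -/
theorem entropy_le_seam (A S1 S2 : Finset (Site L)) (hA : A ⊆ S1) (hB : Aᶜ ⊆ S2) {H1 H2 : Op L q}
    (h1 : H1.IsHermitian) (h2 : H2.IsHermitian) (hc : Commute H1 H2) (l1 : ActsOn S1 H1)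
    (l2 : ActsOn S2 H2) {E : ℝ} {Ω : Cfg L q → ℂ} (hE : SimpleEigen (H1 + H2) E Ω) :
    entropy A Ω ≤ 2 * (S1 ∩ S2).card * Real.log q := by
  obtain ⟨hn, he, hs⟩ := hE
  have hΩ0 : Ω ≠ 0 := fun h => by simp [h] at hn
  obtain ⟨p, r, z, c, hfac⟩ := rank_one h1 h2 hc hΩ0 he hs
  have hr := rank_stateMatrix_le A S1 S2 hA hB (l1.aeval p) (l2.aeval r) z c hfac
  have hps := posSemidef_self_mul_conjTranspose (stateMatrix A Ω)
  have htr : (stateMatrix A Ω * (stateMatrix A Ω)ᴴ).trace = 1 := by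
    have e : ∑ a, ∑ b, ‖stateMatrix A Ω a b‖ ^ 2 = 1 := by
      rw [← hn, ← Fintype.sum_prod_type']
      exact (Equiv.piEquivPiSubtypeProd (fun x => x ∈ A) fun _ => Fin q).symm.sum_comp
        (fun x => ‖Ω x‖ ^ 2)
    simp only [trace, diag_apply, mul_apply, conjTranspose_apply, Complex.star_def,
      Complex.mul_conj']
    exact_mod_cast e
  refine (entropy_le_log_rank hps htr).trans ?_
  have hr' : (stateMatrix A Ω * (stateMatrix A Ω)ᴴ).rank ≤ q ^ (2 * (S1 ∩ S2).card) :=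
    (rank_mul_le_left _ _).trans hr
  rcases Nat.eq_zero_or_pos (stateMatrix A Ω * (stateMatrix A Ω)ᴴ).rank with h0 | h0
  · rw [h0, Nat.cast_zero, Real.log_zero]
    have := Real.log_natCast_nonneg q
    positivity
  · refine (Real.log_le_log (by exact_mod_cast h0) (Nat.cast_le.2 hr')).trans (le_of_eq ?_)
    rw [Nat.cast_pow, Real.log_pow]
    push_cast
    ring

end Vale.Agent.P356
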